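import Vale.Agent.P062.Sit

/-!
P062: certificates. A set of cells of the `32 × 32` window is a natural number whose bit `32 x + y`
stands for the cell `(x - 16, y - 16)`. A certificate is a list of rows, each justified by earlier
ones.
-/

namespace Vale.Agent.P062.Cert

/-- The cell of an index. -/
def cellOf (i : ℕ) : Cell := (((i / 32 : ℕ) : ℤ) - 16, ((i % 32 : ℕ) : ℤ) - 16)

theorem cellOf_inj {i j : ℕ} (h : cellOf i = cellOf j) : i = j := by
  simp only [cellOf, Prod.mk.injEq] at h
  omega

/-- The set of a natural number. -/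
def setOf (n : ℕ) : Finset Cell :=
  ((Finset.range 1024).filter fun i => n.testBit i = true).image cellOf

theorem mem_setOf {n : ℕ} {x : Cell} :
    x ∈ setOf n ↔ ∃ i, i < 1024 ∧ n.testBit i = true ∧ cellOf i = x := by
  simp [setOf, and_assoc]

theorem mem_setOf_cell {n i : ℕ} (hi : i < 1024) :
    cellOf i ∈ setOf n ↔ n.testBit i = true := by
  rw [mem_setOf]
  constructor
  · rintro ⟨j, -, hj, he⟩
    rwa [← cellOf_inj he]
  · exact fun h => ⟨i, hi, h, rfl⟩

theorem setOf_subset {a b : ℕ} (h : a &&& b = a) : setOf a ⊆ setOf b := by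
  intro x hx
  obtain ⟨i, hi, ht, rfl⟩ := mem_setOf.1 hx
  rw [← h, Nat.testBit_and, Bool.and_eq_true] at ht
  exact (mem_setOf_cell hi).2 ht.2

theorem setOf_or (a b : ℕ) : setOf (a ||| b) = setOf a ∪ setOf b := by
  ext x
  simp only [Finset.mem_union, mem_setOf, Nat.testBit_or, Bool.or_eq_true]
  aesop

theorem setOf_single {i : ℕ} (hi : i < 1024) : setOf (1 <<< i) = {cellOf i} := by
  ext x
  simp only [mem_setOf, Finset.mem_singleton, Nat.shiftLeft_eq, one_mul, Nat.testBit_two_pow,
    decide_eq_true_eq]
  constructor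
  · rintro ⟨j, -, rfl, rfl⟩
    rfl
  · rintro rfl
    exact ⟨i, hi, rfl, rfl⟩

/-- The allowed columns for a shift by `v - 32`. -/
def mask (v : ℕ) : ℕ :=
  (if 32 ≤ v then 2 ^ (64 - v) - 1 else 2 ^ 32 - 2 ^ (32 - v)) * ((2 ^ 1024 - 1) / (2 ^ 32 - 1))

theorem mask_ok : (List.range 64).all (fun v => (List.range 1024).all fun i =>
    !((mask v).testBit i) || (decide (32 ≤ i % 32 + v) && decide (i % 32 + v < 64))) = true := by
  decide +kernel

theorem mask_col {v i : ℕ} (hv : v < 64) (hi : i < 1024) (h : (mask v).testBit i = true) :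
    32 ≤ i % 32 + v ∧ i % 32 + v < 64 := by
  have h1 := mask_ok
  simp only [List.all_eq_true, List.mem_range, Bool.or_eq_true, Bool.and_eq_true,
    decide_eq_true_eq] at h1
  rcases h1 v hv i hi with h2 | h2
  · simp [h] at h2
  · exact h2

/-- The translate of a set by `(u - 32, v - 32)`, if it stays in the window. -/
def shiftBy (a u v : ℕ) : Option ℕ :=
  if v < 64 ∧ u < 64 ∧ a >>> 1024 = 0 ∧ a &&& mask v = a then
    if 1056 ≤ 32 * u + v then
      if (a <<< (32 * u + v - 1056)) >>> 1024 = 0 then some (a <<< (32 * u + v - 1056)) else none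
    else
      if (a >>> (1056 - (32 * u + v))) <<< (1056 - (32 * u + v)) = a then
        some (a >>> (1056 - (32 * u + v))) else none
  else none

theorem testBit_lt {a i : ℕ} (ha : a >>> 1024 = 0) (h : a.testBit i = true) : i < 1024 := by
  by_contra hi
  have : (a >>> 1024).testBit (i - 1024) = a.testBit i := by
    rw [Nat.testBit_shiftRight, Nat.add_sub_cancel' (by omega)]
  rw [ha, Nat.zero_testBit, h] at this
  cases this

theorem shiftBy_spec {a u v r : ℕ} (h : shiftBy a u v = some r) :
    setOf r = (setOf a).image (move ((u : ℤ) - 32, (v : ℤ) - 32) (false, false, false)) := by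
  simp only [shiftBy] at h
  split_ifs at h with h0 h1 h2 h3
  all_goals
    obtain ⟨hv, hu, ha, hm⟩ := h0
    rw [Option.some.injEq] at h
    subst h
    have hcol : ∀ i, a.testBit i = true → 32 ≤ i % 32 + v ∧ i % 32 + v < 64 := fun i hi => by
      refine mask_col hv (testBit_lt ha hi) ?_
      rw [← hm, Nat.testBit_and, Bool.and_eq_true] at hi
      exact hi.2
    have hmove : ∀ i j : ℕ, a.testBit i = true → j + 1056 = i + (32 * u + v) →
        move ((u : ℤ) - 32, (v : ℤ) - 32) (false, false, false) (cellOf i) = cellOf j := by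
      intro i j hi hj
      obtain ⟨c1, c2⟩ := hcol i hi
      have e1 : j % 32 + 32 = i % 32 + v := by omega
      rw [move_apply]
      refine Prod.ext ?_ ?_ <;> simp [turn, flipIf, cellOf] <;> omega
    ext x
    simp only [Finset.mem_image, mem_setOf]
    constructor
  · rintro ⟨j, hj, ht, rfl⟩
    rw [Nat.testBit_shiftLeft, Bool.and_eq_true, decide_eq_true_eq] at ht
    exact ⟨cellOf (j - (32 * u + v - 1056)), ⟨_, testBit_lt ha ht.2, ht.2, rfl⟩,
      hmove _ _ ht.2 (by omega)⟩
  · rintro ⟨y, ⟨i, hi, ht, rfl⟩, rfl⟩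
    have hb : (a <<< (32 * u + v - 1056)).testBit (i + (32 * u + v - 1056)) = true := by
      simp [Nat.testBit_shiftLeft, ht]
    exact ⟨_, testBit_lt h2 hb, hb, (hmove _ _ ht (by omega)).symm⟩
  · rintro ⟨j, hj, ht, rfl⟩
    rw [Nat.testBit_shiftRight] at ht
    exact ⟨cellOf (1056 - (32 * u + v) + j), ⟨_, testBit_lt ha ht, ht, rfl⟩,
      hmove _ _ ht (by omega)⟩
  · rintro ⟨y, ⟨i, hi, ht, rfl⟩, rfl⟩
    have hk : 1056 - (32 * u + v) ≤ i := by
      by_contra hk
      rw [← h3, Nat.testBit_shiftLeft] at ht
      simp only [Bool.and_eq_true, decide_eq_true_eq] at ht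
      omega
    refine ⟨i - (1056 - (32 * u + v)), by omega, ?_, (hmove _ _ ht (by omega)).symm⟩
    rw [Nat.testBit_shiftRight, Nat.add_sub_cancel' hk]
    exact ht

/-- Turning an index about the centre `(0, 0)`, by the symmetry number `g`: exchange if `4`,
negate the first coordinate if `1`, the second if `2`. -/
def turnIdx (g i : ℕ) : ℕ :=
  let x := if g / 4 % 2 = 1 then i % 32 else i / 32
  let y := if g / 4 % 2 = 1 then i / 32 else i % 32
  32 * (if g % 2 = 1 then 32 - x else x) + (if g / 2 % 2 = 1 then 32 - y else y)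

/-- The symmetry of a number. -/
def symOf (g : ℕ) : Bool × Bool × Bool :=
  (g / 4 % 2 == 1, g % 2 == 1, g / 2 % 2 == 1)

/-- The bits of a list of indices. -/
def bitsOf : List ℕ → ℕ
  | [] => 0
  | i :: l => 1 <<< i ||| bitsOf l

/-- Turn a list of indices; the images must stay in the window. -/
def turnOk (g : ℕ) (l : List ℕ) : Bool :=
  l.all fun i => decide (i < 1024 ∧ turnIdx g i < 1024 ∧
    (if g / 4 % 2 = 1 then i / 32 else i % 32) + (if g / 2 % 2 = 1 then 0 else 1) ≠ 0)

theorem setOf_bitsOf : ∀ (l : List ℕ), (∀ i ∈ l, i < 1024) →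
    setOf (bitsOf l) = (l.map cellOf).toFinset
  | [], _ => by simp [bitsOf, setOf]
  | i :: l, h => by
    rw [bitsOf, setOf_or, setOf_single (h i List.mem_cons_self),
      setOf_bitsOf l fun j hj => h j (List.mem_cons_of_mem _ hj), List.map_cons,
      List.toFinset_cons, Finset.singleton_union]

theorem turn_cell {g i : ℕ} (hi : i < 1024) (ht : turnIdx g i < 1024)
    (hy : (if g / 4 % 2 = 1 then i / 32 else i % 32) + (if g / 2 % 2 = 1 then 0 else 1) ≠ 0) :
    cellOf (turnIdx g i) = move (0, 0) (symOf g) (cellOf i) := by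
  rw [move_apply]
  simp only [turnIdx] at ht
  simp only [turnIdx, symOf, turn, flipIf, cellOf, beq_iff_eq]
  split_ifs at ht hy ⊢ <;>
    refine Prod.ext ?_ ?_ <;> simp only [Prod.fst_add, Prod.snd_add, zero_add] <;> omega

theorem setOf_turn {g : ℕ} {l : List ℕ} (h : turnOk g l = true) :
    setOf (bitsOf (l.map (turnIdx g))) = (setOf (bitsOf l)).image (move (0, 0) (symOf g)) := by
  simp only [turnOk, List.all_eq_true, decide_eq_true_eq] at h
  rw [setOf_bitsOf _ fun i hi => (h i hi).1, setOf_bitsOf _ fun i hi => by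
    obtain ⟨j, hj, rfl⟩ := List.mem_map.1 hi
    exact (h j hj).2.1]
  ext x
  simp only [List.mem_toFinset, List.mem_map, Finset.mem_image]
  constructor
  · rintro ⟨_, ⟨j, hj, rfl⟩, rfl⟩
    obtain ⟨a, b, c⟩ := h j hj
    exact ⟨_, ⟨j, hj, rfl⟩, (turn_cell a b c).symm⟩
  · rintro ⟨_, ⟨j, hj, rfl⟩, rfl⟩
    obtain ⟨a, b, c⟩ := h j hj
    exact ⟨_, ⟨j, hj, rfl⟩, turn_cell a b c⟩

/-- A row of a certificate. -/
inductive Row
  /-- Maker's cells contain the copy `(t₁ - 16, t₂ - 16) + R(S)`, with `R` the symmetry `g`. -/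
  | copy (x t g : ℕ)
  /-- Maker claims `c`; each child is an earlier row translated. -/
  | step (x e c : ℕ) (kids : List ℕ)
  /-- An earlier row turned, given with the lists of its cells. -/
  | image (x e j g : ℕ) (xs es : List ℕ)
  deriving Inhabited

/-- Maker's cells of a row. -/
def Row.own : Row → ℕ
  | copy x _ _ => x
  | step x _ _ _ => x
  | image x _ _ _ _ _ => x

/-- The cells Breaker must not hold. -/
def Row.need : Row → ℕ
  | copy _ _ _ => 0
  | step _ e _ _ => e
  | image _ e _ _ _ _ => e

/-- The six indices of Snaky translated to `t`, turned by `g`. -/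
def copyIdx (t g : ℕ) : List ℕ :=
  [0, 32, 64, 96, 97, 129].map fun d => t + turnIdx g (528 + d) - 528

/-- The copy is inside the window. -/
def copyOk (t g : ℕ) : Bool :=
  ([0, 32, 64, 96, 97, 129].all fun d => decide (528 ≤ t + turnIdx g (528 + d))) &&
    (copyIdx t g).all fun i => decide (i < 1024 ∧ i / 32 + 4 ≥ t / 32 ∧ t / 32 + 4 ≥ i / 32 ∧
      i % 32 + 4 ≥ t % 32 ∧ t % 32 + 4 ≥ i % 32)

theorem copyIdx_ok : (List.range 1024).all (fun t => (List.range 8).all fun g =>
    !(copyOk t g) ||
      decide ((copyIdx t g).map cellOf =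
        [((0, 0) : Cell), (1, 0), (2, 0), (3, 0), (3, 1), (4, 1)].map
          fun u => cellOf t + turn (symOf g) u)) = true := by
  decide +kernel

/-- Check a row against the earlier ones. -/
def check (get : ℕ → Row) (n : ℕ) : Row → Bool
  | Row.copy x t g => decide (t < 1024) && decide (g < 8) &&
      (copyOk t g) &&
      decide (bitsOf (copyIdx t g) &&& x = bitsOf (copyIdx t g))
  | Row.step x e c kids =>
      decide (c < 1024) && Nat.testBit (x ||| e) c && !kids.isEmpty &&
      (go (x ||| 1 <<< c) (e ||| (x ||| 1 <<< c)) kids (2 ^ 1024 - 1))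
  | Row.image x e j g xs es => decide (j < n) && turnOk g xs && turnOk g es &&
      decide (bitsOf xs = (get j).own) && decide (bitsOf es = (get j).need) &&
      decide (bitsOf (xs.map (turnIdx g)) = x) && decide (bitsOf (es.map (turnIdx g)) = e)
where
  /-- Check the children, carrying the intersection of what they need. -/
  go (own allowed : ℕ) : List ℕ → ℕ → Bool
    | [], acc => decide (acc &&& own = acc)
    | k :: ks, acc =>
      let r := get (k / 4096)
      match shiftBy r.own (k / 64 % 64) (k % 64), shiftBy r.need (k / 64 % 64) (k % 64) with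
      | some a, some b =>
        decide (k / 4096 < n) && decide (a &&& own = a) && decide (b &&& allowed = b) &&
          go own allowed ks (acc &&& b)
      | _, _ => false

/-- A row is good. -/
def RowGood (n : ℕ) (r : Row) : Prop := Good n (setOf r.own) (setOf r.need)

theorem go_spec {get : ℕ → Row} {n own allowed : ℕ} (hget : ∀ j < n, RowGood n (get j)) :
    ∀ (ks : List ℕ) (acc : ℕ), check.go get n own allowed ks acc = true →
      ∃ L : List (Finset Cell × Finset Cell), L.length = ks.length ∧
        (∀ p ∈ L, Good n p.1 p.2 ∧ p.1 ⊆ setOf own ∧ p.2 ⊆ setOf allowed) ∧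
        ∀ b ∈ setOf acc, (∀ p ∈ L, b ∈ p.2) → b ∈ setOf own
  | [], acc, h => by
    simp only [check.go, decide_eq_true_eq] at h
    exact ⟨[], rfl, by simp, fun b hb _ => setOf_subset h hb⟩
  | k :: ks, acc, h => by
    simp only [check.go] at h
    split at h
    · next a b ha hb =>
      simp only [Bool.and_eq_true, decide_eq_true_eq] at h
      obtain ⟨⟨⟨hj, hao⟩, hba⟩, hrest⟩ := h
      obtain ⟨L, hlen, hL, hcov⟩ := go_spec hget ks _ hrest
      refine ⟨(setOf a, setOf b) :: L, by simp [hlen], fun p hp => ?_, fun z hz hall => ?_⟩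
      · rcases List.mem_cons.1 hp with rfl | hp
        · refine ⟨?_, setOf_subset hao, setOf_subset hba⟩
          simp only
          rw [shiftBy_spec ha, shiftBy_spec hb]
          exact (hget _ hj).moved _ _
        · exact hL p hp
      · refine hcov z ?_ fun p hp => hall p (List.mem_cons_of_mem _ hp)
        obtain ⟨i, hi, ht, rfl⟩ := mem_setOf.1 hz
        have hb' := hall _ List.mem_cons_self
        rw [mem_setOf_cell hi] at hb' ⊢
        rw [Nat.testBit_and, ht, hb', Bool.and_self]
    · exact absurd h Bool.false_ne_true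

theorem check_sound {get : ℕ → Row} {n : ℕ} {r : Row} (hget : ∀ j < n, RowGood n (get j))
    (h : check get n r = true) : RowGood (n + 1) r := by
  cases r with
  | copy x t g =>
    simp only [check, Bool.and_eq_true, decide_eq_true_eq] at h
    obtain ⟨⟨⟨ht, hg⟩, hwin⟩, hsub⟩ := h
    refine good_copy _ _ _ ⟨cellOf t, symOf g, ?_⟩
    have h1 := copyIdx_ok
    simp only [List.all_eq_true, List.mem_range, Bool.or_eq_true, decide_eq_true_eq] at h1
    have h2 := (h1 t ht g hg).resolve_left (by rw [hwin]; simp)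
    intro u hu
    refine setOf_subset hsub ?_
    rw [setOf_bitsOf _ fun i hi => by
      simp only [copyOk, Bool.and_eq_true, List.all_eq_true, decide_eq_true_eq] at hwin
      exact (hwin.2 i hi).1, h2]
    simpa [snakyCopy, snaky, eq_comm] using hu
  | step x e c kids =>
    simp only [check, Bool.and_eq_true, decide_eq_true_eq, Bool.not_eq_true',
      List.isEmpty_eq_false_iff] at h
    obtain ⟨⟨⟨hc, hce⟩, hne⟩, hgo⟩ := h
    obtain ⟨L, hlen, hL, hcov⟩ := go_spec hget kids _ hgo
    have hown : setOf (x ||| 1 <<< c) = insert (cellOf c) (setOf x) := by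
      rw [setOf_or, setOf_single hc, Finset.union_comm, Finset.singleton_union]
    refine good_step (c := cellOf c) (L := L) (fun p hp => (hL p hp).1) ?_
      (fun p hp => hown ▸ (hL p hp).2.1) (fun p hp z hz => ?_) fun b hb => ?_
    · rw [← Finset.mem_union, ← setOf_or]
      exact (mem_setOf_cell hc).2 hce
    · have := (hL p hp).2.2 hz
      rw [setOf_or, Finset.mem_union, hown] at this
      exact this
    · show b ∈ insert (cellOf c) (setOf x)
      rw [← hown]
      obtain ⟨p, hp⟩ : ∃ p, p ∈ L := by
        cases L with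
        | nil => simp at hlen; exact absurd hlen.symm (by simpa using hne)
        | cons p L => exact ⟨p, List.mem_cons_self⟩
      obtain ⟨i, hi, -, rfl⟩ := mem_setOf.1 ((hL p hp).2.2 (hb p hp))
      refine hcov _ ((mem_setOf_cell hi).2 ?_) hb
      rw [Nat.testBit_two_pow_sub_one]
      exact decide_eq_true hi
  | image x e j g xs es =>
    simp only [check, Bool.and_eq_true, decide_eq_true_eq] at h
    obtain ⟨⟨⟨⟨⟨⟨hj, hxs⟩, hes⟩, hx0⟩, he0⟩, hx⟩, he⟩ := h
    have hg := ((hget j hj).mono (Nat.le_succ n)).moved (0, 0) (symOf g)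
    rw [← hx0, ← he0, ← setOf_turn hxs, ← setOf_turn hes, hx, he] at hg
    exact hg

/-- A binary tree of rows. -/
inductive RowTree
  | leaf (r : Row)
  | node (l r : RowTree)

/-- The row number `i` of a tree of depth `d`. -/
def RowTree.get : RowTree → ℕ → ℕ → Row
  | leaf r, _, _ => r
  | node l r, d, i => if i / 2 ^ (d - 1) % 2 = 0 then l.get (d - 1) i else r.get (d - 1) i

/-- Check the rows `lo, …, lo + len - 1`. -/
def checkRange (get : ℕ → Row) : ℕ → ℕ → Bool
  | _, 0 => true
  | lo, len + 1 => check get lo (get lo) && checkRange get (lo + 1) len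

theorem checkRange_mem {get : ℕ → Row} : ∀ {len lo : ℕ}, checkRange get lo len = true →
    ∀ i, lo ≤ i → i < lo + len → check get i (get i) = true
  | 0, _, _, i, h1, h2 => by omega
  | len + 1, lo, h, i, h1, h2 => by
    simp only [checkRange, Bool.and_eq_true] at h
    rcases Nat.eq_or_lt_of_le h1 with rfl | hlt
    · exact h.1
    · exact checkRange_mem h.2 i hlt (by omega)

/-- Soundness of a certificate. -/
theorem rows_good {get : ℕ → Row} {N : ℕ} (h : ∀ i < N, check get i (get i) = true) :
    ∀ i < N, RowGood (i + 1) (get i) := by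
  intro i
  induction i using Nat.strong_induction_on with
  | _ i ih =>
    intro hi
    exact check_sound (fun j hj => (ih j hj (by omega)).mono (by omega)) (h i hi)

/-- A certified situation inside a position wins for Maker. -/
theorem makerWinsFrom_of_row {get : ℕ → Row} {N : ℕ} (h : ∀ i < N, check get i (get i) = true)
    {i : ℕ} (hi : i < N) {M B : Finset Cell} (hM : setOf (get i).own ⊆ M)
    (hB : Disjoint (setOf (get i).need) B) (hMB : Disjoint M B) : MakerWinsFrom M B :=
  makerWinsFrom_of_winIn (rows_good h i hi M B hM hB hMB)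

end Vale.Agent.P062.Cert
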