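import Mathlib

/-!
P062: the achievement game for Snaky on the planar board, and forced wins of Maker in boundedly
many turns.
-/

namespace Vale.Agent.P062

/-- A cell of the board. -/
abbrev Cell : Type := ℤ × ℤ

/-- The hexomino Snaky. -/
def snaky : Finset Cell := {(0, 0), (1, 0), (2, 0), (3, 0), (3, 1), (4, 1)}

/-- Negate if asked. -/
def flipIf (s : Bool) (z : ℤ) : ℤ := if s then -z else z

/-- A signed permutation matrix: possibly exchange the coordinates, then negate as asked. -/
def turn (g : Bool × Bool × Bool) (u : Cell) : Cell :=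
  let v : Cell := if g.1 then (u.2, u.1) else u
  (flipIf g.2.1 v.1, flipIf g.2.2 v.2)

/-- The allowed copy `t + R(S)`. -/
def snakyCopy (t : Cell) (g : Bool × Bool × Bool) : Finset Cell :=
  snaky.image fun u => t + turn g u

/-- A set of cells owns some allowed copy. -/
def HasCopy (M : Finset Cell) : Prop := ∃ t g, snakyCopy t g ⊆ M

/-- A cell not yet claimed. -/
def Unclaimed (M B : Finset Cell) (x : Cell) : Prop := x ∉ M ∧ x ∉ B

/-- Maker, to move, wins within `n` turns against every legal play of Breaker. -/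
def WinIn : ℕ → Finset Cell → Finset Cell → Prop
  | 0, M, _ => HasCopy M
  | n + 1, M, B => HasCopy M ∨ ∃ c, Unclaimed M B c ∧
      ∀ b, Unclaimed (insert c M) B b → WinIn n (insert c M) (insert b B)

theorem exists_unclaimed (M B : Finset Cell) : ∃ x, Unclaimed M B x := by
  obtain ⟨x, hx⟩ := Infinite.exists_notMem_finset (M ∪ B)
  exact ⟨x, fun h => hx (Finset.mem_union_left _ h), fun h => hx (Finset.mem_union_right _ h)⟩

theorem winIn_of_copy {M : Finset Cell} (h : HasCopy M) : ∀ (n : ℕ) (B : Finset Cell), WinIn n M B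
  | 0, _ => h
  | _ + 1, _ => Or.inl h

theorem WinIn.succ : ∀ {n : ℕ} {M B : Finset Cell}, WinIn n M B → WinIn (n + 1) M B
  | 0, _, _, h => Or.inl h
  | _ + 1, _, _, h => by
    rcases h with h | ⟨c, hc, hb⟩
    · exact Or.inl h
    · exact Or.inr ⟨c, hc, fun b hb' => (hb b hb').succ⟩

theorem WinIn.mono {n m : ℕ} (hnm : n ≤ m) {M B : Finset Cell} (h : WinIn n M B) :
    WinIn m M B := by
  induction hnm with
  | refl => exact h
  | step _ ih => exact ih.succ

/-- The position after `n` full turns from `(M₀, B₀)`, Maker following `σ` and Breaker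
claiming `β 0, β 1, …`. -/
def position (σ : Finset Cell → Finset Cell → Cell) (β : ℕ → Cell) (M₀ B₀ : Finset Cell) :
    ℕ → Finset Cell × Finset Cell
  | 0 => (M₀, B₀)
  | n + 1 =>
    (insert (σ (position σ β M₀ B₀ n).1 (position σ β M₀ B₀ n).2) (position σ β M₀ B₀ n).1,
      insert (β n) (position σ β M₀ B₀ n).2)

/-- `β` only claims cells which are unclaimed when it is Breaker's turn. -/
def BreakerLegal (σ : Finset Cell → Finset Cell → Cell) (β : ℕ → Cell) (M₀ B₀ : Finset Cell) :
    Prop :=
  ∀ n, Unclaimed (position σ β M₀ B₀ (n + 1)).1 (position σ β M₀ B₀ n).2 (β n)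

/-- Maker has a winning strategy from `(M₀, B₀)`, Maker to move: a rule which always names an
unclaimed cell and which makes Maker own an allowed copy after finitely many turns against every
legal play of Breaker. -/
def MakerWinsFrom (M₀ B₀ : Finset Cell) : Prop :=
  ∃ σ : Finset Cell → Finset Cell → Cell, (∀ M B, Unclaimed M B (σ M B)) ∧
    ∀ β : ℕ → Cell, BreakerLegal σ β M₀ B₀ → ∃ n, HasCopy (position σ β M₀ B₀ n).1

/-- Maker has a winning strategy in the game on the initially empty board, moving first. -/
def MakerWins : Prop := MakerWinsFrom ∅ ∅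

theorem position_shift (σ : Finset Cell → Finset Cell → Cell) (β : ℕ → Cell)
    (M₀ B₀ : Finset Cell) : ∀ n, position σ β M₀ B₀ (n + 1) =
      position σ (fun k => β (k + 1)) (insert (σ M₀ B₀) M₀) (insert (β 0) B₀) n
  | 0 => rfl
  | n + 1 => by
    show (_, _) = (_, _)
    rw [position_shift σ β M₀ B₀ n]

/-- A bounded forced win gives a winning strategy. -/
theorem makerWinsFrom_of_winIn {n : ℕ} {M₀ B₀ : Finset Cell} (h : WinIn n M₀ B₀) :
    MakerWinsFrom M₀ B₀ := by
  classical
  let good : Finset Cell → Finset Cell → Cell → Prop := fun M B c => Unclaimed M B c ∧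
    ∀ m, WinIn (m + 1) M B → ¬ WinIn m M B →
      ∀ b, Unclaimed (insert c M) B b → WinIn m (insert c M) (insert b B)
  have hgood : ∀ M B, ∃ c, good M B c := by
    intro M B
    by_cases hw : ∃ m, WinIn (m + 1) M B ∧ ¬ WinIn m M B
    · obtain ⟨m, hm, hm'⟩ := hw
      rcases hm with hc | ⟨c, hc, hb⟩
      · exact absurd (winIn_of_copy hc m B) hm'
      · refine ⟨c, hc, fun k hk hk' => ?_⟩
        have e : k = m := by
          rcases Nat.lt_trichotomy k m with hlt | he | hgt
          · exact absurd (hk.mono hlt) hm'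
          · exact he
          · exact absurd (WinIn.mono hgt (Or.inr ⟨c, hc, hb⟩ : WinIn (m + 1) M B)) hk'
        subst e
        exact hb
    · obtain ⟨c, hc⟩ := exists_unclaimed M B
      exact ⟨c, hc, fun m hm hm' => absurd ⟨m, hm, hm'⟩ hw⟩
  choose σ hσ using hgood
  refine ⟨σ, fun M B => (hσ M B).1, ?_⟩
  induction n generalizing M₀ B₀ with
  | zero => exact fun β _ => ⟨0, h⟩
  | succ n ih =>
    intro β hβ
    by_cases hlow : WinIn n M₀ B₀
    · exact ih hlow β hβ
    · have hnext := (hσ M₀ B₀).2 n h hlow (β 0) (hβ 0)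
      have hlegal : BreakerLegal σ (fun k => β (k + 1)) (insert (σ M₀ B₀) M₀)
          (insert (β 0) B₀) := by
        intro k
        rw [← position_shift, ← position_shift]
        exact hβ (k + 1)
      obtain ⟨k, hk⟩ := ih hnext _ hlegal
      exact ⟨k + 1, by rw [position_shift]; exact hk⟩

end Vale.Agent.P062
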