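import Vale.Agent.P062.Game

/-!
P062: winning situations. A situation is a set `X` of cells of Maker and a set `E` of cells which
Breaker must not hold.
-/

namespace Vale.Agent.P062

/-- Every position containing the situation `(X, E)` is won within `n` turns, Maker to move. -/
def Good (n : ℕ) (X E : Finset Cell) : Prop :=
  ∀ M B : Finset Cell, X ⊆ M → Disjoint E B → Disjoint M B → WinIn n M B

theorem good_copy (n : ℕ) (X E : Finset Cell) (h : HasCopy X) : Good n X E := by
  intro M B hX _ _
  obtain ⟨t, g, hg⟩ := h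
  exact winIn_of_copy ⟨t, g, hg.trans hX⟩ n B

theorem Good.mono {n m : ℕ} (hnm : n ≤ m) {X E : Finset Cell} (h : Good n X E) : Good m X E :=
  fun M B h1 h2 h3 => (h M B h1 h2 h3).mono hnm

theorem Good.weaken {n : ℕ} {X X' E E' : Finset Cell} (h : Good n X E) (hX : X ⊆ X')
    (hE : E ⊆ E') : Good n X' E' :=
  fun M B h1 h2 h3 => h M B (hX.trans h1) (h2.mono_left hE) h3

/-- The step: Maker claims `c`, and every reply of Breaker leaves one of the listed situations. -/
theorem good_step {n : ℕ} {X E : Finset Cell} {c : Cell} {L : List (Finset Cell × Finset Cell)}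
    (hgood : ∀ p ∈ L, Good n p.1 p.2) (hc : c ∈ X ∨ c ∈ E)
    (hX : ∀ p ∈ L, p.1 ⊆ insert c X)
    (hE : ∀ p ∈ L, ∀ x ∈ p.2, x ∈ E ∨ x ∈ insert c X)
    (hcov : ∀ b, (∀ p ∈ L, b ∈ p.2) → b ∈ insert c X) : Good (n + 1) X E := by
  classical
  intro M B hXM hEB hMB
  have hcB : c ∉ B := fun hb => hc.elim
    (fun hx => Finset.disjoint_left.1 hMB (hXM hx) hb)
    (fun he => Finset.disjoint_left.1 hEB he hb)
  obtain ⟨c', hfree, hcM⟩ : ∃ c', Unclaimed M B c' ∧ insert c X ⊆ insert c' M := by
    by_cases h : c ∈ M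
    · obtain ⟨x, hx⟩ := exists_unclaimed M B
      exact ⟨x, hx, Finset.insert_subset (Finset.mem_insert_of_mem h)
        (hXM.trans (Finset.subset_insert _ _))⟩
    · exact ⟨c, ⟨h, hcB⟩, Finset.insert_subset_insert _ hXM⟩
  refine Or.inr ⟨c', hfree, fun b hb => ?_⟩
  have hMB' : Disjoint (insert c' M) B := Finset.disjoint_insert_left.2 ⟨hfree.2, hMB⟩
  obtain ⟨p, hp, hbp⟩ : ∃ p ∈ L, b ∉ p.2 := by
    by_contra hall
    push Not at hall
    exact hb.1 (hcM (hcov b hall))
  refine hgood p hp _ _ ((hX p hp).trans hcM) ?_ ?_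
  · refine Finset.disjoint_left.2 fun x hx hxB => ?_
    rcases Finset.mem_insert.1 hxB with rfl | hxB
    · exact hbp hx
    · rcases hE p hp x hx with he | he
      · exact Finset.disjoint_left.1 hEB he hxB
      · exact Finset.disjoint_left.1 hMB' (hcM he) hxB
  · exact Finset.disjoint_insert_right.2 ⟨hb.1, hMB'⟩

/-- A symmetry of the board as an equivalence of cells. -/
def flipEquiv (s : Bool) : ℤ ≃ ℤ where
  toFun := flipIf s
  invFun := flipIf s
  left_inv z := by cases s <;> simp [flipIf]
  right_inv z := by cases s <;> simp [flipIf]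

/-- `u ↦ t + turn g u`. -/
def move (t : Cell) (g : Bool × Bool × Bool) : Cell ≃ Cell :=
  ((if g.1 then Equiv.prodComm ℤ ℤ else Equiv.refl _).trans
    (Equiv.prodCongr (flipEquiv g.2.1) (flipEquiv g.2.2))).trans (Equiv.addLeft t)

theorem move_apply (t : Cell) (g : Bool × Bool × Bool) (u : Cell) : move t g u = t + turn g u := by
  obtain ⟨a, b, c⟩ := g
  cases a <;> rfl

theorem turn_comp (g h : Bool × Bool × Bool) :
    ∃ k, ∀ u, turn g (turn h u) = turn k u := by
  obtain ⟨a, b, c⟩ := g
  obtain ⟨a', b', c'⟩ := h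
  refine ⟨(xor a a', if a then (xor b c', xor c b') else (xor b b', xor c c')), fun u => ?_⟩
  cases a <;> cases a' <;> cases b <;> cases c <;> cases b' <;> cases c' <;>
    simp [turn, flipIf]

theorem turn_add (g : Bool × Bool × Bool) (u v : Cell) : turn g (u + v) = turn g u + turn g v := by
  obtain ⟨a, b, c⟩ := g
  cases a <;> cases b <;> cases c <;> refine Prod.ext ?_ ?_ <;> simp [turn, flipIf] <;> ring

theorem hasCopy_move {t : Cell} {g : Bool × Bool × Bool} {M : Finset Cell} (h : HasCopy M) :
    HasCopy (M.image (move t g)) := by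
  obtain ⟨t', g', h⟩ := h
  obtain ⟨k, hk⟩ := turn_comp g g'
  refine ⟨t + turn g t', k, ?_⟩
  refine Finset.Subset.trans ?_ (Finset.image_subset_image h)
  intro x hx
  simp only [snakyCopy, Finset.mem_image] at hx ⊢
  obtain ⟨u, hu, rfl⟩ := hx
  exact ⟨t' + turn g' u, ⟨u, hu, rfl⟩, by rw [move_apply, turn_add, hk, add_assoc]⟩

theorem winIn_move (t : Cell) (g : Bool × Bool × Bool) : ∀ {n : ℕ} {M B : Finset Cell},
    WinIn n M B → WinIn n (M.image (move t g)) (B.image (move t g))
  | 0, _, _, h => hasCopy_move h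
  | n + 1, M, B, h => by
    rcases h with h | ⟨c, hc, hb⟩
    · exact Or.inl (hasCopy_move h)
    · refine Or.inr ⟨move t g c, ⟨?_, ?_⟩, fun b hb' => ?_⟩
      · simpa [Finset.mem_image] using hc.1
      · simpa [Finset.mem_image] using hc.2
      · obtain ⟨b, rfl⟩ := (move t g).surjective b
        rw [← Finset.image_insert, ← Finset.image_insert]
        refine winIn_move t g (hb b ?_)
        rw [← Finset.image_insert] at hb'
        refine ⟨?_, ?_⟩
        · intro hm
          exact hb'.1 (Finset.mem_image_of_mem _ hm)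
        · intro hm
          exact hb'.2 (Finset.mem_image_of_mem _ hm)

theorem Good.moved {n : ℕ} {X E : Finset Cell} (h : Good n X E) (t : Cell)
    (g : Bool × Bool × Bool) : Good n (X.image (move t g)) (E.image (move t g)) := by
  intro M B hX hE hMB
  have key : ∀ S : Finset Cell, (S.image (move t g).symm).image (move t g) = S := fun S => by
    rw [Finset.image_image]
    simp
  rw [← key M, ← key B]
  refine winIn_move t g (h _ _ ?_ ?_ ?_)
  · intro x hx
    exact Finset.mem_image.2 ⟨move t g x, hX (Finset.mem_image_of_mem _ hx), by simp⟩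
  · refine Finset.disjoint_left.2 fun x hx hxB => ?_
    obtain ⟨y, hy, hxy⟩ := Finset.mem_image.1 hxB
    subst hxy
    exact Finset.disjoint_left.1 hE (by simpa using Finset.mem_image_of_mem (move t g) hx) hy
  · exact (Finset.disjoint_image (move t g).symm.injective).2 hMB

end Vale.Agent.P062
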